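import Vale.Agent.P038.H17.Core

/-! (G) of helper294 for an arc-minimal counterexample, unweighted (helper17). -/

namespace Vale.Agent.P038.H17

open Finset

variable {V : Type*} [Fintype V] [DecidableEq V]

theorem strictG {N : V → Finset V} (hCE : CE N)
    (hmin : ∀ N' : V → Finset V, CE N' → ∑ v, (N v).card ≤ ∑ v, (N' v).card)
    (X : Finset V) (hX : Nb N X ≠ X) : h N (Nb N X) < h N X := by
  classical
  obtain ⟨⟨hr, ha⟩, hc⟩ := hCE
  by_contra hcon
  push Not at hcon
  -- the layer
  set L : Finset V := Nb N X \ X with hL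
  -- the functional
  let φ : Finset V → ℤ := fun T => ((Nb N T \ X).card : ℤ) - 2 * T.card
  have hLne : L.Nonempty := by
    rw [Finset.nonempty_iff_ne_empty]
    intro h0
    apply hX
    apply Finset.Subset.antisymm _ (subset_Nb hr X)
    rwa [← Finset.sdiff_eq_empty_iff_subset]
  -- value at L is nonnegative
  have hNL : Nb N (Nb N X) \ X = Nb N L \ X := by
    ext z
    simp only [mem_sdiff, mem_Nb, hL]
    constructor
    · rintro ⟨⟨y, ⟨x, hx, hy⟩, hz⟩, hzX⟩
      refine ⟨?_, hzX⟩
      by_cases hyX : y ∈ X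
      · exact ⟨z, ⟨⟨y, hyX, hz⟩, hzX⟩, hr z⟩
      · exact ⟨y, ⟨⟨x, hx, hy⟩, hyX⟩, hz⟩
    · rintro ⟨⟨y, ⟨⟨x, hx, hy⟩, _⟩, hz⟩, hzX⟩
      exact ⟨⟨y, ⟨x, hx, hy⟩, hz⟩, hzX⟩
  have hφL : 0 ≤ φ L := by
    have e1 : (Nb N (Nb N X)).card = h N (Nb N X) + (Nb N X).card := card_Nb hr _
    have e2 : (Nb N X).card = h N X + X.card := card_Nb hr _
    have e3 : (Nb N (Nb N X) \ X).card + X.card = (Nb N (Nb N X)).card :=
      Finset.card_sdiff_add_card_eq_card ((subset_Nb hr X).trans (subset_Nb hr _))
    have e4 : L.card = h N X := rfl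
    rw [hNL] at e3
    show (0 : ℤ) ≤ ((Nb N L \ X).card : ℤ) - 2 * L.card
    omega
  have hφ0 : φ ∅ = 0 := by simp [φ, Nb]
  -- a minimiser of φ among proper subsets of L is a minimiser on all subsets
  obtain ⟨T, hTm, hTmin⟩ := Finset.exists_min_image (L.powerset.erase L) φ
    ⟨∅, by simp [hLne.ne_empty.symm]⟩
  have hTL : T ⊆ L := Finset.mem_powerset.1 (Finset.mem_of_mem_erase hTm)
  have hTne : T ≠ L := Finset.ne_of_mem_erase hTm
  have hT : ∀ T' ⊆ L, φ T ≤ φ T' := by
    intro T' hT'
    by_cases hTL' : T' = L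
    · have h1 : φ T ≤ φ ∅ := hTmin ∅ (by simp [hLne.ne_empty.symm])
      rw [hTL']
      omega
    · exact hTmin T' (by simp [hTL', hT'])
  obtain ⟨s, hsL, hsT⟩ : ∃ s ∈ L, s ∉ T := by
    by_contra hno
    push Not at hno
    exact hTne (Finset.Subset.antisymm hTL hno)
  -- the reduced graph
  let N' : V → Finset V := fun v => if v ∈ X then N v ∩ (X ∪ T) else N v
  have hN'sub : ∀ v, N' v ⊆ N v := by
    intro v
    simp only [N']
    split_ifs
    · exact Finset.inter_subset_left
    · exact Finset.Subset.refl _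
  have hr' : ∀ v, v ∈ N' v := by
    intro v
    simp only [N']
    split_ifs with hv
    · simp [hr v, hv]
    · exact hr v
  have hCE' : CE N' := by
    refine ⟨⟨hr', fun x y hx hy => ha x y (hN'sub _ hx) (hN'sub _ hy)⟩, ?_⟩
    intro v
    have hNN : Nb N' (N' v) ⊆ Nb N (N v) := by
      intro z hz
      obtain ⟨y, hy, hz⟩ := mem_Nb.1 hz
      exact mem_Nb.2 ⟨y, hN'sub _ hy, hN'sub _ hz⟩
    by_cases hv : v ∈ X
    · have hN'v : N' v = N v ∩ (X ∪ T) := by simp [N', hv]
      set S : Finset V := N v \ (X ∪ T) with hS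
      have hSL : S ⊆ L := by
        intro z hz
        simp only [hS, mem_sdiff, mem_union, not_or] at hz
        simp only [hL, mem_sdiff]
        exact ⟨mem_Nb.2 ⟨v, hv, hz.1⟩, hz.2.1⟩
      have hST : Disjoint T S := by
        rw [Finset.disjoint_left]
        intro z hz hz'
        simp only [hS, mem_sdiff, mem_union, not_or] at hz'
        exact hz'.2.2 hz
      have hcardN : (N' v).card + S.card = (N v).card := by
        rw [hN'v, hS]
        exact Finset.card_inter_add_card_sdiff _ _
      -- minimality at T ∪ S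
      have hm := hT (T ∪ S) (Finset.union_subset hTL hSL)
      have hTS : (T ∪ S).card = T.card + S.card := Finset.card_union_of_disjoint hST
      -- new second neighbours lost
      set Q : Finset V := Nb N S \ (X ∪ Nb N T) with hQ
      have hQcard : ((Nb N (T ∪ S)) \ X).card = (Nb N T \ X).card + Q.card := by
        rw [Nb_union]
        have : (Nb N T ∪ Nb N S) \ X = (Nb N T \ X) ∪ Q := by
          ext z
          simp only [hQ, mem_sdiff, mem_union]
          tauto
        rw [this]
        apply Finset.card_union_of_disjoint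
        rw [Finset.disjoint_left]
        intro z hz hz'
        simp only [hQ, mem_sdiff, mem_union] at hz hz'
        tauto
      have hQ2 : 2 * S.card ≤ Q.card := by
        simp only [φ] at hm
        rw [hQcard, hTS] at hm
        push_cast at hm
        omega
      have hdis : Disjoint (Nb N' (N' v)) Q := by
        rw [Finset.disjoint_left]
        intro z hz hzQ
        simp only [hQ, mem_sdiff, mem_union, not_or] at hzQ
        obtain ⟨y, hy, hzy⟩ := mem_Nb.1 hz
        rw [hN'v] at hy
        rcases Finset.mem_union.1 (Finset.mem_inter.1 hy).2 with hyX | hyT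
        · have : z ∈ N y ∩ (X ∪ T) := by simpa [N', hyX] using hzy
          rcases Finset.mem_union.1 (Finset.mem_inter.1 this).2 with hzX | hzT
          · exact hzQ.2.1 hzX
          · exact hzQ.2.2 (subset_Nb hr T hzT)
        · exact hzQ.2.2 (mem_Nb.2 ⟨y, hyT, hN'sub _ hzy⟩)
      have hQsub : Q ⊆ Nb N (N v) := by
        intro z hz
        simp only [hQ, mem_sdiff] at hz
        obtain ⟨y, hy, hzy⟩ := mem_Nb.1 hz.1
        exact mem_Nb.2 ⟨y, (Finset.mem_sdiff.1 hy).1, hzy⟩
      have hcardNN : (Nb N' (N' v)).card + Q.card ≤ (Nb N (N v)).card := by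
        rw [← Finset.card_union_of_disjoint hdis]
        exact Finset.card_le_card (Finset.union_subset hNN hQsub)
      have := hc v
      omega
    · have hN'v : N' v = N v := by simp [N', hv]
      have h1 : (Nb N' (N' v)).card ≤ (Nb N (N v)).card := Finset.card_le_card hNN
      rw [hN'v] at h1 ⊢
      have := hc v
      omega
  have hlt : ∑ v, (N' v).card < ∑ v, (N v).card := by
    have hsNX : s ∈ Nb N X := (Finset.mem_sdiff.1 hsL).1
    have hsX : s ∉ X := (Finset.mem_sdiff.1 hsL).2
    obtain ⟨x, hx, hsx⟩ := mem_Nb.1 hsNX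
    apply Finset.sum_lt_sum (fun v _ => Finset.card_le_card (hN'sub v))
    refine ⟨x, Finset.mem_univ x, ?_⟩
    apply Finset.card_lt_card
    refine ⟨hN'sub x, fun hsub => ?_⟩
    have := hsub hsx
    simp only [N', hx, if_true, mem_inter, mem_union] at this
    rcases this.2 with h1 | h1
    · exact hsX h1
    · exact hsT h1
  exact absurd (hmin N' hCE') (not_le.2 hlt)

end Vale.Agent.P038.H17
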