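import Vale.Agent.P038.H17.G
import Vale.Agent.P038.Defs

/-! Seymour's second neighbourhood conjecture: the inner and the outer problem (848's form),
closing argument (helper17; gap inequality by helper700 / 787). -/

namespace Vale.Agent.P038.H17

open Finset

variable {V : Type*} [Fintype V] [DecidableEq V]

/-- outer pairs -/
structure OP (N B C : V → Finset V) : Prop where
  b : ∀ a, N a ⊆ B a
  c : ∀ a, N a ⊆ C a
  o : ∀ a x, x ∈ B a → a ∈ C x → a = x

/-- cost -/
def cost (N B C : V → Finset V) : ℕ := ∑ a, h N (B a) + ∑ a, h N (C a)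

/-- complement of the columns of `C`, with the diagonal -/
def Uof (C : V → Finset V) (a : V) : Finset V := univ.filter (fun x => x = a ∨ a ∉ C x)

lemma mem_Uof {C : V → Finset V} {a x : V} : x ∈ Uof C a ↔ x = a ∨ a ∉ C x := by simp [Uof]

lemma B_sub_Uof {N B C : V → Finset V} (hop : OP N B C) (a : V) : B a ⊆ Uof C a := by
  intro x hx
  rw [mem_Uof]
  by_cases h : a ∈ C x
  · exact Or.inl (hop.o a x hx h).symm
  · exact Or.inr h

lemma sum_update_h (N B : V → Finset V) (a : V) (T : Finset V) :
    ∑ x, h N (Function.update B a T x) + h N (B a) = ∑ x, h N (B x) + h N T := by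
  rw [← Finset.add_sum_erase univ (fun x => h N (Function.update B a T x)) (mem_univ a),
    ← Finset.add_sum_erase univ (fun x => h N (B x)) (mem_univ a)]
  have : ∑ x ∈ univ.erase a, h N (Function.update B a T x) = ∑ x ∈ univ.erase a, h N (B x) := by
    apply Finset.sum_congr rfl
    intro x hx
    rw [Function.update_of_ne (Finset.ne_of_mem_erase hx)]
  simp only [Function.update_self] at this ⊢
  omega

lemma rowR {N B C : V → Finset V} (hop : OP N B C)
    (hmin : ∀ B' C', OP N B' C' → cost N B C ≤ cost N B' C') (a : V) (T : Finset V)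
    (h1 : B a ⊆ T) (h2 : T ⊆ Uof C a) : h N (B a) ≤ h N T := by
  have hop' : OP N (Function.update B a T) C := by
    refine ⟨fun x => ?_, hop.c, fun x y hy hx => ?_⟩
    · by_cases hxa : x = a
      · subst hxa; rw [Function.update_self]; exact (hop.b x).trans h1
      · rw [Function.update_of_ne hxa]; exact hop.b x
    · by_cases hxa : x = a
      · subst hxa
        rw [Function.update_self] at hy
        rcases mem_Uof.1 (h2 hy) with h | h
        · exact h.symm
        · exact absurd hx h
      · rw [Function.update_of_ne hxa] at hy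
        exact hop.o x y hy hx
  have := hmin _ _ hop'
  have h3 := sum_update_h N B a T
  unfold cost at this
  omega

lemma colC {N B C : V → Finset V} (hr : ∀ v, v ∈ N v) (hop : OP N B C)
    (hmin : ∀ B' C', OP N B' C' → cost N B C ≤ cost N B' C') (b : V) (S : Finset V)
    (hS : ∀ a ∈ S, b ∈ Uof C a ∧ b ∉ B a) :
    S.card ≤ ((Nb N S).filter (fun z => b ∈ meet N (Uof C) z)).card := by
  have hop' : OP N B (Function.update C b (C b ∪ S)) := by
    refine ⟨hop.b, fun x => ?_, fun x y hy hx => ?_⟩
    · by_cases hxb : x = b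
      · subst hxb; rw [Function.update_self]; exact (hop.c x).trans Finset.subset_union_left
      · rw [Function.update_of_ne hxb]; exact hop.c x
    · by_cases hyb : y = b
      · subst hyb
        rw [Function.update_self] at hx
        rcases Finset.mem_union.1 hx with h | h
        · exact hop.o x y hy h
        · exact absurd hy (hS x h).2
      · rw [Function.update_of_ne hyb] at hx
        exact hop.o x y hy hx
  have hm := hmin _ _ hop'
  have h3 := sum_update_h N C b (C b ∪ S)
  have hle : h N (C b) ≤ h N (C b ∪ S) := by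
    unfold cost at hm
    omega
  have hdisj : Disjoint (C b) S := by
    rw [Finset.disjoint_left]
    intro a ha haS
    obtain ⟨h1, h2⟩ := hS a haS
    rcases mem_Uof.1 h1 with h | h
    · subst h; exact h2 (hop.b b (hr b))
    · exact h ha
  have e1 := card_Nb hr (C b)
  have e2 := card_Nb hr (C b ∪ S)
  have e3 : (C b ∪ S).card = (C b).card + S.card := Finset.card_union_of_disjoint hdisj
  have e4 : (Nb N (C b ∪ S)).card = (Nb N (C b)).card + (Nb N S \ Nb N (C b)).card := by
    rw [Nb_union, ← Finset.union_sdiff_self_eq_union]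
    exact Finset.card_union_of_disjoint Finset.disjoint_sdiff
  have e5 : (Nb N S \ Nb N (C b)).card ≤
      ((Nb N S).filter (fun z => b ∈ meet N (Uof C) z)).card := by
    apply Finset.card_le_card
    intro z hz
    rw [Finset.mem_sdiff] at hz
    rw [Finset.mem_filter]
    refine ⟨hz.1, mem_meet.2 fun a haz => ?_⟩
    rw [mem_Uof]
    right
    intro hab
    exact hz.2 (mem_Nb.2 ⟨a, hab, haz⟩)
  omega

/-- feasibility of the inner pair -/
lemma inner {N B C : V → Finset V} (hr : ∀ v, v ∈ N v) (hop : OP N B C) {a y : V}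
    (h1 : y ∈ Nb N (meet N (Uof C) a)) (h2 : a ∈ Nb N (meet N C y)) : a = y := by
  obtain ⟨x, hx, hyx⟩ := mem_Nb.1 h1
  obtain ⟨z, hz, haz⟩ := mem_Nb.1 h2
  have hxz : x ∈ Uof C z := mem_meet.1 hx z haz
  have hzx : z ∈ C x := mem_meet.1 hz x hyx
  have e1 : x = z := by
    rcases mem_Uof.1 hxz with h | h
    · exact h
    · exact absurd hzx h
  subst e1
  have hax : a ∈ C x := hop.c x haz
  have hxa : x ∈ Uof C a := mem_meet.1 hx a (hr a)
  have e2 : x = a := by
    rcases mem_Uof.1 hxa with h | h
    · exact h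
    · exact absurd hax h
  subst e2
  exact hop.o x y (hop.b x hyx) (mem_meet.1 hz y (hr y))

lemma card_pairs (F : V → Finset V) :
    ∑ a, (F a).card = (univ.filter (fun p : V × V => p.2 ∈ F p.1)).card := by
  rw [Finset.card_filter, Fintype.sum_prod_type]
  apply Finset.sum_congr rfl
  intro a _
  rw [← Finset.card_filter]
  congr 1
  ext x
  simp

lemma card_pairs' (F : V → Finset V) :
    ∑ a, (F a).card = (univ.filter (fun p : V × V => p.1 ∈ F p.2)).card := by
  rw [Finset.card_filter, Fintype.sum_prod_type_right]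
  apply Finset.sum_congr rfl
  intro a _
  rw [← Finset.card_filter]
  congr 1
  ext x
  simp

/-- Lemma 1 of 848 -/
lemma lemma1 {N B C : V → Finset V} (hr : ∀ v, v ∈ N v) (hop : OP N B C) :
    ∑ a, h N (meet N (Uof C) a) + ∑ a, h N (meet N C a) ≤
      ∑ a, h N (Uof C a) + ∑ a, h N (C a) := by
  classical
  unfold h
  rw [card_pairs (fun a => Nb N (meet N (Uof C) a) \ meet N (Uof C) a),
    card_pairs' (fun a => Nb N (meet N C a) \ meet N C a),
    card_pairs (fun a => Nb N (Uof C a) \ Uof C a),
    card_pairs' (fun a => Nb N (C a) \ C a)]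
  rw [← Finset.card_union_of_disjoint]
  · refine le_trans (Finset.card_le_card ?_) (Finset.card_union_le _ _)
    rintro ⟨a, y⟩ hp
    simp only [mem_union, mem_filter, mem_univ, true_and, mem_sdiff] at hp ⊢
    rcases hp with ⟨h1, h2⟩ | ⟨h1, h2⟩
    · -- P1
      obtain ⟨a', haa', hya'⟩ : ∃ a', a ∈ N a' ∧ y ∉ Uof C a' := by
        by_contra hno
        push Not at hno
        exact h2 (mem_meet.2 hno)
      rw [mem_Uof] at hya'
      push Not at hya'
      have haC : a ∈ Nb N (C y) := mem_Nb.2 ⟨a', hya'.2, haa'⟩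
      by_cases hay : a ∈ C y
      · left
        have hne : y ≠ a := by
          rintro rfl
          apply h2
          rw [mem_meet]
          intro b hb
          rw [mem_Uof]
          by_cases hby : b ∈ C y
          · left
            exact (hop.o b y (hop.b b hb) hby).symm
          · exact Or.inr hby
        refine ⟨Nb_mono (meet_subset (hr a)) h1, ?_⟩
        rw [mem_Uof]
        push Not
        exact ⟨hne, hay⟩
      · right
        exact ⟨haC, hay⟩
    · -- P2
      obtain ⟨y', hyy', hay'⟩ : ∃ y', y ∈ N y' ∧ a ∉ C y' := by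
        by_contra hno
        push Not at hno
        exact h2 (mem_meet.2 hno)
      have hyU : y ∈ Nb N (Uof C a) := mem_Nb.2 ⟨y', mem_Uof.2 (Or.inr hay'), hyy'⟩
      by_cases hyB : y ∈ Uof C a
      · right
        have hne : y ≠ a := by
          rintro rfl
          apply h2
          rw [mem_meet]
          intro b hb
          exact hop.c b hb
        rcases mem_Uof.1 hyB with h | h
        · exact absurd h hne
        · exact ⟨Nb_mono (meet_subset (hr y)) h1, h⟩
      · left
        exact ⟨hyU, hyB⟩
  · rw [Finset.disjoint_left]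
    rintro ⟨a, y⟩ h1 h2
    simp only [mem_filter, mem_univ, true_and, mem_sdiff] at h1 h2
    have e : a = y := inner hr hop h1.1 h2.1
    subst e
    apply h1.2
    rw [mem_meet]
    intro b hb
    exact B_sub_Uof hop b (hop.b b hb)

/-- the inner pair built from an optimal outer pair -/
lemma shift {N B C : V → Finset V} (hr : ∀ v, v ∈ N v) (hop : OP N B C)
    (hmin : ∀ B' C', OP N B' C' → cost N B C ≤ cost N B' C') :
    ∑ a, h N (meet N B a) + ∑ a, h N (meet N C a) ≤ cost N B C := by
  have h1 := lemma1 hr hop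
  have h2 := gap hr (B_sub_Uof hop) (fun a Y hY1 hY2 => rowR hop hmin a Y hY1 hY2)
    (fun b S hS => colC hr hop hmin b S hS)
  simp only [Finset.sum_sub_distrib] at h2
  unfold cost
  have h3 : ((∑ a, h N (meet N (Uof C) a) + ∑ a, h N (meet N C a) : ℕ) : ℤ) ≤
      ((∑ a, h N (Uof C a) + ∑ a, h N (C a) : ℕ) : ℤ) := by exact_mod_cast h1
  have h4 : ((∑ a, h N (meet N B a) + ∑ a, h N (meet N C a) : ℕ) : ℤ) ≤
      ((∑ a, h N (B a) + ∑ a, h N (C a) : ℕ) : ℤ) := by
    push_cast at h3 ⊢
    linarith
  exact_mod_cast h4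

/-- no counterexample with the fewest arcs -/
theorem no_min_CE [Nonempty V] {N : V → Finset V} (hCE : CE N)
    (hminN : ∀ N' : V → Finset V, CE N' → ∑ v, (N v).card ≤ ∑ v, (N' v).card) : False := by
  classical
  have hr : ∀ v, v ∈ N v := hCE.1.refl
  have ha := hCE.1.anti
  -- an optimal outer pair
  obtain ⟨⟨B, C⟩, hBC, hmin'⟩ := Finset.exists_min_image
    (univ.filter (fun p : (V → Finset V) × (V → Finset V) => OP N p.1 p.2))
    (fun p => cost N p.1 p.2)
    ⟨(N, N), by
      simp only [mem_filter, mem_univ, true_and]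
      exact ⟨fun _ => Finset.Subset.refl _, fun _ => Finset.Subset.refl _,
        fun a x hx hax => ha a x hax hx⟩⟩
  simp only [mem_filter, mem_univ, true_and] at hBC hmin'
  have hmin : ∀ B' C', OP N B' C' → cost N B C ≤ cost N B' C' :=
    fun B' C' h => hmin' (B', C') h
  -- the inner pair
  set X : V → Finset V := meet N B with hX
  set Y : V → Finset V := meet N C with hY
  have hXU : ∀ a, X a ⊆ meet N (Uof C) a := meet_mono (B_sub_Uof hBC)
  have hXa : ∀ a, a ∈ X a := fun a => mem_meet.2 fun b hb => hBC.b b hb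
  have hYa : ∀ a, a ∈ Y a := fun a => mem_meet.2 fun b hb => hBC.c b hb
  have hin : ∀ a y, y ∈ Nb N (X a) → a ∈ Nb N (Y y) → a = y := fun a y h1 h2 =>
    inner hr hBC (Nb_mono (hXU a) h1) h2
  have hop : OP N (fun a => Nb N (X a)) (fun a => Nb N (Y a)) :=
    ⟨fun a z hz => mem_Nb.2 ⟨a, hXa a, hz⟩, fun a z hz => mem_Nb.2 ⟨a, hYa a, hz⟩,
      fun a x h1 h2 => hin a x h1 h2⟩
  have h1 : ∑ a, h N (X a) + ∑ a, h N (Y a) ≤ cost N B C := shift hr hBC hmin
  have h2 := hmin _ _ hop
  have hle : ∀ Z : Finset V, h N (Nb N Z) ≤ h N Z := by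
    intro Z
    by_cases hZ : Nb N Z = Z
    · rw [hZ]
    · exact (strictG hCE hminN Z hZ).le
  have hsX : ∑ a, h N (Nb N (X a)) ≤ ∑ a, h N (X a) := Finset.sum_le_sum fun a _ => hle (X a)
  have hsY : ∑ a, h N (Nb N (Y a)) ≤ ∑ a, h N (Y a) := Finset.sum_le_sum fun a _ => hle (Y a)
  have hXc : ∀ a, Nb N (X a) = X a := by
    intro a
    by_contra hne
    have : ∑ a, h N (Nb N (X a)) < ∑ a, h N (X a) :=
      Finset.sum_lt_sum (fun a _ => hle (X a)) ⟨a, mem_univ a, strictG hCE hminN _ hne⟩
    unfold cost at h1 h2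
    beta_reduce at h1 h2
    omega
  have hYc : ∀ a, Nb N (Y a) = Y a := by
    intro a
    by_contra hne
    have : ∑ a, h N (Nb N (Y a)) < ∑ a, h N (Y a) :=
      Finset.sum_lt_sum (fun a _ => hle (Y a)) ⟨a, mem_univ a, strictG hCE hminN _ hne⟩
    unfold cost at h1 h2
    beta_reduce at h1 h2
    omega
  -- a smallest nonempty closed set
  obtain ⟨K, hK, hKmin⟩ := Finset.exists_min_image
    (univ.filter (fun K : Finset V => K.Nonempty ∧ Nb N K = K)) Finset.card
    ⟨univ, by
      simp only [mem_filter, mem_univ, true_and]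
      exact ⟨Finset.univ_nonempty, Finset.Subset.antisymm (Finset.subset_univ _)
        (subset_Nb hr _)⟩⟩
  simp only [mem_filter, mem_univ, true_and] at hK hKmin
  have hcl : ∀ Z : Finset V, Nb N Z = Z → ∀ a ∈ K, a ∈ Z → K ⊆ Z := by
    intro Z hZ a haK haZ
    have hc : Nb N (K ∩ Z) = K ∩ Z := by
      apply Finset.Subset.antisymm _ (subset_Nb hr _)
      intro z hz
      obtain ⟨y, hy, hzy⟩ := mem_Nb.1 hz
      rw [Finset.mem_inter] at hy ⊢
      refine ⟨?_, ?_⟩
      · rw [← hK.2]; exact mem_Nb.2 ⟨y, hy.1, hzy⟩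
      · rw [← hZ]; exact mem_Nb.2 ⟨y, hy.2, hzy⟩
    have hcard := hKmin (K ∩ Z) ⟨⟨a, Finset.mem_inter.2 ⟨haK, haZ⟩⟩, hc⟩
    have : K ∩ Z = K := Finset.eq_of_subset_of_card_le Finset.inter_subset_left hcard
    rw [← this]
    exact Finset.inter_subset_right
  obtain ⟨a, haK⟩ := hK.1
  -- `a` has an out-neighbour
  obtain ⟨y, hy, hya⟩ : ∃ y ∈ N a, y ≠ a := by
    by_contra hno
    push Not at hno
    have hNa : N a = {a} := by
      apply Finset.Subset.antisymm
      · intro z hz; rw [Finset.mem_singleton]; exact hno z hz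
      · intro z hz; rw [Finset.mem_singleton] at hz; rw [hz]; exact hr a
    have := hCE.2 a
    rw [hNa] at this
    simp [Nb, hNa] at this
  have hyK : y ∈ K := by rw [← hK.2]; exact mem_Nb.2 ⟨a, haK, hy⟩
  have hyX : y ∈ Nb N (X a) := by rw [hXc a]; exact hcl (X a) (hXc a) a haK (hXa a) hyK
  have haY : a ∈ Nb N (Y y) := by rw [hYc y]; exact hcl (Y y) (hYc y) y hyK (hYa y) haK
  exact hya (hin a y hyX haY).symm

/-- no counterexample -/
theorem no_CE [Nonempty V] (N : V → Finset V) : ¬ CE N := by
  classical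
  intro hCE
  obtain ⟨M, hM, hmin⟩ := Finset.exists_min_image
    (univ.filter (fun M : V → Finset V => CE M)) (fun M => ∑ v, (M v).card)
    ⟨N, by simp only [mem_filter, mem_univ, true_and]; exact hCE⟩
  simp only [mem_filter, mem_univ, true_and] at hM hmin
  exact no_min_CE hM hmin

end Vale.Agent.P038.H17

namespace Vale.Agent.P038.H17

universe u

/-- Seymour's second neighbourhood conjecture. -/
theorem seymour {V : Type u} [Fintype V] [Nonempty V] (D : OGraph V) :
    ∃ v, (N1 D v).card ≤ (N2 D v).card := by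
  classical
  by_contra hno
  push Not at hno
  apply no_CE (fun v => insert v (N1 D v))
  have hmem : ∀ v x, x ∈ insert v (N1 D v) ↔ x = v ∨ D.arc v x := by
    intro v x
    rw [Finset.mem_insert, mem_N1]
  refine ⟨⟨fun v => Finset.mem_insert_self _ _, ?_⟩, ?_⟩
  · intro x y hx hy
    rcases (hmem _ _).1 hx with h | h
    · exact h
    · rcases (hmem _ _).1 hy with h' | h'
      · exact h'.symm
      · exact absurd h' (D.asymm _ _ h)
  · intro v
    have hv : v ∉ N1 D v := by rw [mem_N1]; exact D.loopless v
    have e1 : (insert v (N1 D v)).card = (N1 D v).card + 1 := Finset.card_insert_of_notMem hv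
    have hsub : Nb (fun v => insert v (N1 D v)) (insert v (N1 D v)) ⊆
        insert v (N1 D v) ∪ N2 D v := by
      intro x hx
      obtain ⟨u, hu, hxu⟩ := mem_Nb.1 hx
      rw [hmem] at hu hxu
      rw [Finset.mem_union, hmem, mem_N2]
      by_cases h1 : x = v
      · exact Or.inl (Or.inl h1)
      by_cases h2 : D.arc v x
      · exact Or.inl (Or.inr h2)
      right
      refine ⟨h1, h2, u, ?_, ?_⟩
      · rcases hu with rfl | hu
        · rcases hxu with h | h
          · exact absurd h h1
          · exact absurd h h2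
        · exact hu
      · rcases hxu with rfl | hxu
        · rcases hu with h | h
          · exact absurd h h1
          · exact absurd h h2
        · exact hxu
    have e2 := (Finset.card_le_card hsub).trans (Finset.card_union_le _ _)
    have := hno v
    show (Nb (fun v => insert v (N1 D v)) (insert v (N1 D v))).card + 1 <
      2 * (insert v (N1 D v)).card
    omega

end Vale.Agent.P038.H17
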